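import Vale.Agent.Lib.P013.Sieve

namespace Vale.Agent.Lib.P013

open Finset

/-- Jacobsthal's function: the least `m ≥ 1` such that every `m` consecutive integers contain
an integer coprime to `n`. -/
noncomputable def jac (n : ℕ) : ℕ :=
  sInf {m : ℕ | 0 < m ∧ ∀ a : ℤ, ∃ x : ℤ, a ≤ x ∧ x < a + m ∧ IsCoprime x (n : ℤ)}

/-- interval form of the bound -/
theorem interval_bound (n : ℕ) (hn : 0 < n) (A : Finset ℕ) (hA : A ⊆ n.primeFactors)
    (hs : ∑ p ∈ n.primeFactors \ A, (1 : ℝ) / p ≤ 1 / 2) (a : ℤ) :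
    ∃ x : ℤ, a ≤ x ∧ x < a + (((∏ p ∈ A, p) * (6 * (n.primeFactors \ A).card + 1) : ℕ) : ℤ) ∧
      IsCoprime x (n : ℤ) := by
  classical
  set B := n.primeFactors \ A with hB
  set L := 6 * B.card + 1 with hLdef
  have hAp : ∀ p ∈ A, p.Prime := fun p hp => Nat.prime_of_mem_primeFactors (hA hp)
  have hBp : ∀ p ∈ B, p.Prime := fun p hp =>
    Nat.prime_of_mem_primeFactors (Finset.mem_sdiff.mp hp).1
  have hL : 3 * (B.card : ℝ) < L * (1 - ∑ p ∈ B, (1 : ℝ) / p) := by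
    have h1 : (1 : ℝ) / 2 ≤ 1 - ∑ p ∈ B, (1 : ℝ) / p := by linarith
    have h2 : (L : ℝ) = 6 * B.card + 1 := by rw [hLdef]; push_cast; ring
    have h3 : (0 : ℝ) ≤ (L : ℝ) := by positivity
    nlinarith
  -- shift to the natural numbers
  set c : ℕ := a.natAbs with hc
  have hnn : (0 : ℤ) ≤ a + (c : ℤ) * n := by
    have h1 : (1 : ℤ) ≤ n := by exact_mod_cast hn
    have h2 : -(c : ℤ) ≤ a := by
      rw [hc, Int.natCast_natAbs]
      exact neg_abs_le a
    have h3 : (0 : ℤ) ≤ (c : ℤ) := by positivity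
    nlinarith
  obtain ⟨a', ha'⟩ := Int.eq_ofNat_of_zero_le hnn
  obtain ⟨x, hx, hxA, hxB⟩ := exists_free A B hAp hBp L a' hL
  rw [Finset.mem_Ico] at hx
  have hcop : Nat.Coprime x n := by
    apply Nat.coprime_of_dvd
    intro p hp hpx hpn
    have hmem : p ∈ n.primeFactors := Nat.mem_primeFactors.mpr ⟨hp, hpn, hn.ne'⟩
    by_cases hpA : p ∈ A
    · exact hxA p hpA hpx
    · exact hxB p (Finset.mem_sdiff.mpr ⟨hmem, hpA⟩) hpx
  refine ⟨(x : ℤ) - (c : ℤ) * n, ?_, ?_, ?_⟩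
  · have : (a' : ℤ) ≤ x := by exact_mod_cast hx.1
    linarith
  · have : (x : ℤ) < ((a' + L * ∏ p ∈ A, p : ℕ) : ℤ) := by exact_mod_cast hx.2
    push_cast at this ⊢
    rw [← ha'] at this
    rw [hLdef] at this
    push_cast at this
    linarith
  · have h0 : IsCoprime (x : ℤ) (n : ℤ) := Nat.isCoprime_iff_coprime.mpr hcop
    have := IsCoprime.add_mul_right_left h0 (-(c : ℤ))
    have e : (x : ℤ) + (-(c : ℤ)) * (n : ℤ) = (x : ℤ) - (c : ℤ) * n := by ring
    rwa [e] at this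

theorem jac_le (n : ℕ) (hn : 0 < n) (A : Finset ℕ) (hA : A ⊆ n.primeFactors)
    (hs : ∑ p ∈ n.primeFactors \ A, (1 : ℝ) / p ≤ 1 / 2) :
    jac n ≤ (∏ p ∈ A, p) * (6 * (n.primeFactors \ A).card + 1) := by
  apply Nat.sInf_le
  refine ⟨?_, fun a => interval_bound n hn A hA hs a⟩
  have : 0 < ∏ p ∈ A, p :=
    Finset.prod_pos fun p hp => (Nat.prime_of_mem_primeFactors (hA hp)).pos
  positivity

/-- the defining set of `jac n` is nonempty, so `jac n` is a genuine minimum -/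
theorem jac_spec (n : ℕ) (hn : 0 < n) :
    0 < jac n ∧ ∀ a : ℤ, ∃ x : ℤ, a ≤ x ∧ x < a + (jac n : ℤ) ∧ IsCoprime x (n : ℤ) := by
  have hne : {m : ℕ | 0 < m ∧ ∀ a : ℤ, ∃ x : ℤ, a ≤ x ∧ x < a + m ∧ IsCoprime x (n : ℤ)}.Nonempty := by
    refine ⟨n, hn, fun a => ?_⟩
    -- among n consecutive integers one is congruent to 1 mod n
    refine ⟨a + (1 - a) % n, ?_, ?_, ?_⟩
    · have : 0 ≤ (1 - a) % (n : ℤ) := Int.emod_nonneg _ (by exact_mod_cast hn.ne')
      linarith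
    · have : (1 - a) % (n : ℤ) < n := Int.emod_lt_of_pos _ (by exact_mod_cast hn)
      linarith
    · have e : a + (1 - a) % (n : ℤ) = 1 + (-((1 - a) / n)) * (n : ℤ) := by
        have := Int.emod_add_mul_ediv (1 - a) n
        linarith
      rw [e]
      exact IsCoprime.add_mul_right_left (isCoprime_one_left (x := (n : ℤ))) (-((1 - a) / n))
  exact Nat.sInf_mem hne

end Vale.Agent.Lib.P013
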