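import Mathlib

/-! P013: Jacobsthal's function; an elementary bound for integers with few small prime factors. -/

namespace Vale.Agent.Lib.P013

open Finset

/-- exact count of integers coprime to `N` in `L` full periods -/
theorem block_count (N a L : ℕ) :
    ((Ico a (a + L * N)).filter (fun x => Nat.Coprime N x)).card = L * Nat.totient N := by
  induction L with
  | zero => simp
  | succ L ih =>
    have hu : Ico a (a + (L + 1) * N) = Ico a (a + L * N) ∪ Ico (a + L * N) (a + L * N + N) := by
      rw [Finset.Ico_union_Ico_eq_Ico (by omega) (by omega)]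
      congr 1
      ring
    rw [hu, Finset.filter_union, Finset.card_union_of_disjoint, ih,
      Nat.filter_coprime_Ico_eq_totient]
    · ring
    · apply Finset.disjoint_filter_filter
      exact Finset.Ico_disjoint_Ico_consecutive a (a + L * N) (a + L * N + N)

/-- multiples of `p` coprime to `N` in an interval of length `M` -/
theorem mult_count (N a M p : ℕ) (hN : N ≠ 0) (hp : 0 < p) :
    ((Ico a (a + M)).filter (fun x => Nat.Coprime N x ∧ p ∣ x)).card
      ≤ Nat.totient N * ((M / p + 2) / N + 1) := by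
  refine le_trans ?_ (Nat.Ico_filter_coprime_le (a / p) (M / p + 2) hN)
  refine Finset.card_le_card_of_injOn (fun x => x / p) ?_ ?_
  · intro x hx
    have hx' := Finset.mem_filter.mp (Finset.mem_coe.mp hx)
    obtain ⟨hI, hc, y, rfl⟩ := hx'
    rw [Finset.mem_Ico] at hI
    have hy : p * y / p = y := Nat.mul_div_cancel_left y hp
    refine Finset.mem_coe.mpr (Finset.mem_filter.mpr ⟨?_, ?_⟩)
    · simp only [hy]
      rw [Finset.mem_Ico]
      constructor
      · exact (Nat.div_le_iff_le_mul_add_pred hp).mpr (by nlinarith [hI.1])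
      · -- p y < a + M
        have h1 : a < p * (a / p + 1) := by
          have := Nat.lt_mul_div_succ a hp
          simpa [Nat.succ_eq_add_one] using this
        have h2 : M < p * (M / p + 1) := by
          have := Nat.lt_mul_div_succ M hp
          simpa [Nat.succ_eq_add_one] using this
        have h3 : p * y < p * (a / p + (M / p + 2)) := by nlinarith
        exact Nat.lt_of_mul_lt_mul_left h3
    · simp only [hy]
      exact Nat.Coprime.coprime_mul_left_right hc
  · intro x hx z hz h
    have hx' := (Finset.mem_filter.mp (Finset.mem_coe.mp hx)).2.2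
    have hz' := (Finset.mem_filter.mp (Finset.mem_coe.mp hz)).2.2
    simp only at h
    rw [← Nat.div_mul_cancel hx', ← Nat.div_mul_cancel hz', h]

/-- the sieve step: an integer free of all primes of `A ∪ B` in `L` periods of `∏ A` -/
theorem exists_free (A B : Finset ℕ) (hA : ∀ p ∈ A, p.Prime) (hB : ∀ p ∈ B, p.Prime) (L a : ℕ)
    (hL : 3 * (B.card : ℝ) < L * (1 - ∑ p ∈ B, (1 : ℝ) / p)) :
    ∃ x ∈ Ico a (a + L * ∏ p ∈ A, p), (∀ p ∈ A, ¬ p ∣ x) ∧ ∀ p ∈ B, ¬ p ∣ x := by
  classical
  set N := ∏ p ∈ A, p with hN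
  have hNpos : 0 < N := Finset.prod_pos fun p hp => (hA p hp).pos
  have hφ : 0 < Nat.totient N := Nat.totient_pos.mpr hNpos
  set G := (Ico a (a + L * N)).filter (fun x => Nat.Coprime N x) with hG
  have hGcard : G.card = L * Nat.totient N := block_count N a L
  by_contra hcon
  have hcov : G ⊆ B.biUnion (fun p => (Ico a (a + L * N)).filter (fun x => Nat.Coprime N x ∧ p ∣ x)) := by
    intro x hx
    have hx' := Finset.mem_filter.mp hx
    by_contra hnot
    apply hcon
    refine ⟨x, hx'.1, ?_, ?_⟩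
    · intro p hp hpx
      have hpN : p ∣ N := Finset.dvd_prod_of_mem _ hp
      have := Nat.dvd_gcd hpN hpx
      rw [Nat.Coprime.gcd_eq_one hx'.2] at this
      exact (hA p hp).one_lt.ne' (Nat.dvd_one.mp this)
    · intro p hp hpx
      apply hnot
      rw [Finset.mem_biUnion]
      exact ⟨p, hp, Finset.mem_filter.mpr ⟨hx'.1, hx'.2, hpx⟩⟩
  have h1 : G.card ≤ ∑ p ∈ B, Nat.totient N * ((L * N / p + 2) / N + 1) := by
    refine (Finset.card_le_card hcov).trans (Finset.card_biUnion_le.trans ?_)
    exact Finset.sum_le_sum fun p hp => mult_count N a (L * N) p hNpos.ne' (hB p hp).pos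
  have h2 : ∀ p ∈ B, (((L * N / p + 2) / N + 1 : ℕ) : ℝ) ≤ (L : ℝ) * (1 / p) + 3 := by
    intro p hp
    have hp0 : (0 : ℝ) < p := by exact_mod_cast (hB p hp).pos
    have hN0 : (1 : ℝ) ≤ N := by exact_mod_cast hNpos
    have hN1 : (0 : ℝ) < N := by linarith
    have e1 : (((L * N / p + 2) / N : ℕ) : ℝ) ≤ ((L * N / p + 2 : ℕ) : ℝ) / N := Nat.cast_div_le
    have e2 : ((L * N / p : ℕ) : ℝ) ≤ ((L * N : ℕ) : ℝ) / p := Nat.cast_div_le
    have e3 : ((L * N / p + 2 : ℕ) : ℝ) / N ≤ (L : ℝ) * (1 / p) + 2 := by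
      rw [div_le_iff₀ hN1]
      push_cast
      push_cast at e2
      have : (L : ℝ) * N / p = (L : ℝ) * (1 / p) * N := by ring
      have h0 : 0 ≤ (L : ℝ) * (1 / p) := by positivity
      nlinarith
    push_cast
    push_cast at e1 e3
    linarith
  have h3 : ((G.card : ℕ) : ℝ) ≤ (Nat.totient N : ℝ) * ((L : ℝ) * (∑ p ∈ B, (1 : ℝ) / p) + 3 * B.card) := by
    have : ((G.card : ℕ) : ℝ) ≤ ∑ p ∈ B, (Nat.totient N : ℝ) * (((L * N / p + 2) / N + 1 : ℕ) : ℝ) := by
      exact_mod_cast h1
    refine this.trans ?_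
    rw [← Finset.mul_sum]
    apply mul_le_mul_of_nonneg_left _ (by positivity)
    refine (Finset.sum_le_sum h2).trans ?_
    rw [Finset.sum_add_distrib, ← Finset.mul_sum]
    simp only [Finset.sum_const, nsmul_eq_mul]
    linarith
  rw [hGcard] at h3
  push_cast at h3
  have hφ' : (0 : ℝ) < (Nat.totient N : ℝ) := by exact_mod_cast hφ
  have h4 : (L : ℝ) ≤ (L : ℝ) * (∑ p ∈ B, (1 : ℝ) / p) + 3 * B.card := by
    have : (Nat.totient N : ℝ) * (L : ℝ)
        ≤ (Nat.totient N : ℝ) * ((L : ℝ) * (∑ p ∈ B, (1 : ℝ) / p) + 3 * B.card) := by linarith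
    exact le_of_mul_le_mul_left this hφ'
  nlinarith

end Vale.Agent.Lib.P013
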